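import Vale.Agent.P144Z.R7.Inc
import Vale.Agent.P144Z.R5.Main

/-! Existence of critical parameters. -/

namespace Vale.Agent.P144Z

open Finset Matrix Filter Topology

namespace R7

theorem tc_mem : 2 / 5 ≤ tc ∧ tc ≤ 21 / 50 := by
  have h1 : (7 / 5 : ℝ) ≤ √2 := Real.le_sqrt_of_sq_le (by norm_num)
  have h2 : √2 ≤ (71 / 50 : ℝ) := Real.sqrt_le_iff.2 ⟨by norm_num, by norm_num⟩
  unfold tc
  constructor <;> linarith

theorem init_K {g : Geo} (hg : Pl g) (q : Par) (X : Finset g.P) :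
    (g.init q).K X = g.W0 q X - g.noF (g.W0 q X) := by
  have := hg.emp
  simp [Geo.init]

theorem log_lip {x y : ℝ} (hx : 1 / 4 ≤ x) (hy : 1 / 4 ≤ y) :
    |Real.log x - Real.log y| ≤ 4 * |x - y| := by
  have key : ∀ {a b : ℝ}, 1 / 4 ≤ a → 1 / 4 ≤ b → Real.log a - Real.log b ≤ 4 * |a - b| :=
    fun {a b} ha hb => by
      rw [← Real.log_div (by positivity) (by positivity)]
      refine (Real.log_le_sub_one_of_pos (by positivity)).trans ?_
      rw [div_sub_one (by positivity), div_le_iff₀ (by positivity)]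
      nlinarith [le_abs_self (a - b), abs_nonneg (a - b)]
  rw [abs_le]
  exact ⟨by linarith [key hy hx, abs_sub_comm x y], key hx hy⟩

/-- The contour weight with the initial couplings `a`. -/
noncomputable def xv (a : ℝ × ℝ) : ℝ := tc + a.1 / (1 + a.2)

theorem xv_spec {a : ℝ × ℝ} {η : ℝ} (h : 8 * |a.1| + |a.2| ≤ η) (hη : η ≤ 1 / 16) :
    |xv a - tc| ≤ η ∧ 1 / 4 ≤ xv a ∧ xv a ≤ 1 / 2 ∧ 1 / 2 ≤ 1 + a.2 ∧ 1 + a.2 ≤ 2 ∧
      xv a * (1 + a.2) = tc * (1 + a.2) + a.1 := by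
  have h1 := abs_nonneg a.1
  have h2 := abs_le.1 (show |a.2| ≤ 1 / 16 by linarith)
  have h3 : 0 < 1 + a.2 := by linarith
  have h4 : |xv a - tc| ≤ η := by
    rw [xv, add_sub_cancel_left, abs_div, abs_of_pos h3, div_le_iff₀ h3]
    nlinarith [abs_nonneg a.2]
  have h5 := abs_le.1 h4
  have h6 := tc_mem
  refine ⟨h4, by linarith, by linarith, by linarith, by linarith, ?_⟩
  rw [xv]
  field_simp

theorem xv_lip {a b : ℝ × ℝ} {η ρ : ℝ} (ha : 8 * |a.1| + |a.2| ≤ η) (hb : 8 * |b.1| + |b.2| ≤ η)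
    (hη : η ≤ 1 / 16) (h : 8 * |a.1 - b.1| + |a.2 - b.2| ≤ ρ) :
    |xv a - xv b| ≤ ρ ∧ |xv a * (1 + a.2) - xv b * (1 + b.2)| ≤ ρ := by
  obtain ⟨a1, a2, a3, a4, -, a6⟩ := xv_spec ha hη
  obtain ⟨b1, -, -, -, -, b6⟩ := xv_spec hb hη
  have h6 := tc_mem
  have h7 := abs_nonneg (a.1 - b.1)
  have h8 := abs_nonneg (a.2 - b.2)
  refine ⟨?_, ?_⟩
  · have e : (xv a - xv b) * (1 + a.2) = (a.1 - b.1) - (xv b - tc) * (a.2 - b.2) := by
      linear_combination a6 - b6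
    have h1 := abs_sub (a.1 - b.1) ((xv b - tc) * (a.2 - b.2))
    rw [← e, abs_mul, abs_mul, abs_of_pos (by linarith : 0 < 1 + a.2)] at h1
    nlinarith [abs_nonneg (xv a - xv b)]
  · have h1 := abs_add_le (tc * (a.2 - b.2)) (a.1 - b.1)
    rw [abs_mul, abs_of_pos (by linarith : 0 < tc)] at h1
    rw [a6, b6, show tc * (1 + a.2) + a.1 - (tc * (1 + b.2) + b.1) =
      tc * (a.2 - b.2) + (a.1 - b.1) by ring]
    nlinarith

end R7

open R7

theorem crit_par0 (L : ℕ) (η δ : ℝ) (hη : 0 ≤ η) (hδ : 0 ≤ δ) : Crit L par0 η δ := by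
  have t0 : 0 ≤ th L := by
    rw [th]
    positivity
  refine ⟨⟨⟨rfl, fun _ h => absurd rfl h, ⟨0, fun _ h => absurd rfl h⟩, fun _ _ => rfl,
    fun _ => rfl, fun _ => rfl⟩, fun _ h => absurd rfl h, ?_, ?_, ?_, ?_⟩, ?_,
    ⟨0, 0, fun j => ⟨by simpa using by positivity, fun M _ _ _ => ?_⟩⟩, ?_, ?_⟩
  rotate_left 5
  · obtain ⟨f1, f2⟩ := Geo.free_flow (pl0 M).ok L j
    refine ⟨fun x => by simp [f2], fun z => ?_⟩
    have e : ∀ X, (geo0 M).pn (sc L j) (hb L j) 1 X (((geo0 M).flow L par0 0 j).K X) = 0 := by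
      intro X
      rw [← (pl0 M).noB ((Geo.wf_flow (pl0 M).ok L par0 0 j).Kmem X), f1, Geo.pn, map_zero, nrm]
      refine le_antisymm (Real.sSup_le ?_ le_rfl) (Real.sSup_nonneg ?_)
      · rintro _ ⟨r, -, rfl⟩
        simp [opn]
      · rintro _ ⟨r, -, rfl⟩
        exact norm_nonneg _
    simp only [e, zero_mul, sum_const_zero]
    positivity
  all_goals
    have := tc_mem
    simp only [par0, Par.Small, sub_self, abs_zero, zero_mul]
    linarith

theorem bulkStmt : BulkStmt := by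
  obtain ⟨L₀, H⟩ := one_step
  refine ⟨L₀, fun L hL => ?_⟩
  obtain ⟨h8, C, hC, η₀, η₀0, H⟩ := H L hL
  refine ⟨min η₀ (1 / 16), by positivity, fun η η0 η1 V R hV hR δ δ0 => ?_⟩
  have O := H η η0.le (η1.trans (min_le_left _ _))
  have η2 : η ≤ 1 / 16 := η1.trans (min_le_right _ _)
  have hL1 : 1 ≤ L := by omega
  have h3 : (0 : ℝ) < L ^ 3 := by positivity
  obtain ⟨β, β0, He⟩ := Geo.init_early L (L ^ 3) (by positivity) h3
  obtain ⟨C₀, hC₀, He⟩ := He R
  obtain ⟨C₁, hC₁, Hl⟩ := Geo.init_lip L (L ^ 3) (by positivity) h3 R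
  obtain ⟨S, hS, S0⟩ : ∃ S, ∑ B ∈ potSets R, |V B| = S ∧ 0 ≤ S :=
    ⟨_, rfl, sum_nonneg fun _ _ => abs_nonneg _⟩
  obtain ⟨δ', δ1, δ2, δ3⟩ : ∃ δ' > 0, δ' ≤ δ ∧ 32 * C * C₀ * C₁ * δ' ≤ η :=
    ⟨min δ (η / (32 * C * C₀ * C₁)), by positivity, min_le_left _ _, by
      rw [mul_comm, ← le_div_iff₀ (by positivity)]
      exact min_le_right _ _⟩
  have δ4 : 32 * C * (C₀ * δ') ≤ η := by
    refine le_trans ?_ δ3
    rw [mul_right_comm _ C₁, mul_assoc _ C₀]
    exact le_mul_of_one_le_right (by positivity) hC₁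
  have δ5 : 32 * C * (C₁ * δ') ≤ η := by
    refine le_trans ?_ δ3
    rw [mul_assoc _ C₁, mul_right_comm _ C₀]
    exact le_mul_of_one_le_right (by positivity) hC₀
  have δ6 : C₀ * δ' ≤ 1 := by nlinarith [mul_pos (one_pos.trans_le hC₀) δ1]
  have δ7 : C₁ * δ' ≤ 1 := by nlinarith [mul_pos (one_pos.trans_le hC₁) δ1]
  refine ⟨δ' / (4 * (S + 1)), by positivity, fun κ hκ => ?_⟩
  have κ1 : |κ| * 4 * S ≤ δ' := by
    rw [lt_div_iff₀ (by positivity)] at hκ
    nlinarith [abs_nonneg κ]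
  let par : ℝ × ℝ → Par := fun a => ⟨V, R, κ * (-Real.log (xv a)), xv a, 1 + a.2⟩
  have b0 : ∀ {r c}, Bl (wv L) (th L) r c → 8 * |(c 0).1| + |(c 0).2| ≤ r := fun hc =>
    (le_wv hL1 0 _).trans (by simpa using hc 0)
  have ok : ∀ {a : ℝ × ℝ}, 8 * |a.1| + |a.2| ≤ η → (par a).Ok ∧ (par a).Small δ' := fun ha => by
    obtain ⟨-, a2, a3, a4, a5, -⟩ := xv_spec ha η2
    refine ⟨⟨hV, hR, a2, a3, a4, a5⟩, le_trans ?_ κ1⟩
    simp only [par, hS, abs_mul, abs_neg]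
    gcongr
    have := log_lip a2 (by norm_num : (1 / 4 : ℝ) ≤ 1)
    rw [Real.log_one, sub_zero, abs_of_nonpos (by linarith : xv _ - 1 ≤ 0)] at this
    linarith
  choose dd hd using fun c : ℕ → ℝ × ℝ => exists_causal
    (fun d j => c (j + 1) - c j - inc L (par (c 0)) d j) fun d d' j h => by
      simp only [inc_congr L _ j h]
  have D : ∀ c, Bl (wv L) (th L) η c → Dat L C η (par (c 0)) (dd c) c := fun c hc => by
    refine ⟨(ok (b0 hc)).1, ?_, by simp [par], fun j => by rw [hd c j]; abel, hc, fun M _ => ?_⟩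
    · linear_combination (xv_spec (b0 hc) η2).2.2.2.2.2
    · have g0 := pl0 M
      have := g0.emp
      refine anch_mono (anch_mul (He _ rfl (ok (b0 hc)).1 δ' (ok (b0 hc)).2 δ6 _ g0.ok
        (fun k => this.elim k) (fun k => this.elim k) β β0 le_rfl).2 zero_le_two) (fun X => ?_) ?_
      · have m := Geo.W0_mem g0.ok (par (c 0)) X
        have e := Geo.pn_noB_eq g0.sign (by norm_num : 1 ≤ 8) h3 one_pos m β0
        rw [g0.noB m] at e
        simp only [Geo.Wsrc, univ_eq_empty (α := (geo0 M).K), filter_empty, sum_empty, sub_zero]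
        rw [init_K g0, e]
        exact pn_sub_noF g0.sign (by norm_num) h3 one_pos m
      · rw [le_div_iff₀ (by positivity)]
        linarith
  obtain ⟨c, hc, he⟩ := (wt_wv hL1).solve (th_pos hL1).le (th_le (by omega)) η0.le
    (fun c => inc L (par (c 0)) (dd c)) (fun c hc => inc_one h8 hC η0.le O (D c hc))
    fun c c' ρ hc hc' hρ => by
      have ρ0 : 0 ≤ ρ := le_trans (by positivity) (b0 hρ)
      refine inc_two h8 hC η0.le O (D c hc) (D c' hc') rfl ρ0 hρ fun M _ => ?_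
      have g0 := pl0 M
      obtain ⟨l1, l2⟩ := xv_lip (b0 hc) (b0 hc') η2 (b0 hρ)
      refine anch_mono (anch_mul (Hl (par (c 0)) (par (c' 0)) rfl rfl rfl (ok (b0 hc)).1
        (ok (b0 hc')).1 δ' (ok (b0 hc)).2 (ok (b0 hc')).2 δ7 M) zero_le_two) (fun X => ?_) ?_
      · rw [init_K g0, init_K g0, sub_sub_sub_comm, ← map_sub]
        exact pn_sub_noF g0.sign (by norm_num) h3 one_pos
          (sub_mem (Geo.W0_mem g0.ok _ X) (Geo.W0_mem g0.ok _ X))
      · have l3 := log_lip (xv_spec (b0 hc') η2).2.1 (xv_spec (b0 hc) η2).2.1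
        rw [abs_sub_comm (xv _)] at l3
        simp only [par, hS]
        rw [← mul_sub, abs_mul, neg_sub_neg, le_div_iff₀ (by positivity)]
        calc _ ≤ 2 * (C₁ * (|κ| * (4 * ρ) * S + δ' * ρ)) * C := by
              gcongr
              linarith
          _ = 2 * C * C₁ * (|κ| * 4 * S + δ') * ρ := by ring
          _ ≤ 2 * C * C₁ * (δ' + δ') * ρ := by gcongr
          _ ≤ _ := mul_le_of_le_one_left ρ0 (by linarith)
  have d0 : dd c = 0 := funext fun j => by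
    rw [hd c j, he j]
    simp
  have D' := D c hc
  rw [d0] at D'
  refine ⟨xv (c 0), 1 + (c 0).2, D'.ok, (ok (b0 hc)).2.trans δ2,
    ⟨fun j => (c j).1, fun j => (c j).2, fun j => ⟨hc j, fun M _ h1 h2 => ?_⟩⟩,
    (xv_spec (b0 hc) η2).1, ?_⟩
  · have G := good_flow h8 hC η0.le O D' M h1 j h2
    exact ⟨G.v, anch_mono G.K (fun _ => le_rfl) (mul_le_mul_of_nonneg_right
      (div_le_self η0.le hC) (pow_pos (th_pos hL1) j).le)⟩
  · have := b0 hc
    rw [add_sub_cancel_left]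
    linarith [abs_nonneg (c 0).1]

end Vale.Agent.P144Z
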