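import Vale.Agent.P144Z.G.Main

/-! Anchored sums for the bulk step. -/

namespace Vale.Agent.P144Z.R7

open Finset

variable {M : ℕ} [NeZero M]

theorem anch_mono {ℓ : ℕ} {τ ε ε' : ℝ} {f f' : Finset (Tor M) → ℝ} (hA : Anch ℓ τ f ε)
    (hf : ∀ X, f' X ≤ f X) (hε : ε ≤ ε') : Anch ℓ τ f' ε' := fun z =>
  ((sum_le_sum fun X _ => mul_le_mul_of_nonneg_right (hf X) (Real.exp_pos _).le).trans
    (hA z)).trans hε

theorem anch_add {ℓ : ℕ} {τ ε ε' : ℝ} {f f' : Finset (Tor M) → ℝ} (hA : Anch ℓ τ f ε)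
    (hA' : Anch ℓ τ f' ε') : Anch ℓ τ (fun X => f X + f' X) (ε + ε') := fun z => by
  simp only [add_mul, sum_add_distrib]
  exact add_le_add (hA z) (hA' z)

theorem anch_mul {ℓ : ℕ} {τ ε c : ℝ} {f : Finset (Tor M) → ℝ} (hA : Anch ℓ τ f ε) (hc : 0 ≤ c) :
    Anch ℓ τ (fun X => c * f X) (c * ε) := fun z => by
  simp only [mul_assoc, ← mul_sum]
  exact mul_le_mul_of_nonneg_left (by simpa only [mul_assoc] using hA z) hc

/-- The sum over the sets that meet a larger square. -/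
theorem anch_big {ℓ r : ℕ} (h1 : 1 ≤ ℓ) (h : ℓ ≤ r) {τ ε : ℝ} {f : Finset (Tor M) → ℝ}
    (hf : ∀ X, 0 ≤ f X) (hA : Anch ℓ τ f ε) (z : Tor M) :
    ∑ X ∈ univ.filter (fun X : Finset (Tor M) => ∃ x ∈ X, tdist x z ≤ r),
      f X * Real.exp (τ * (stein X : ℝ) / ℓ) ≤ 50 * ((r : ℝ) / ℓ) ^ 2 * ε := by
  have := Anch.touch h1 h hf hA {z}
  simpa [stein_singleton] using this

theorem exp_gain {L : ℝ} (hL : 1 ≤ L) : Real.exp (1 - L) ≤ Real.exp 6 / L ^ 3 := by
  have h1 : L ^ 3 / 6 ≤ Real.exp L := by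
    simpa [Nat.factorial] using Real.pow_div_factorial_le_exp L (by linarith) 3
  have h2 : (6 : ℝ) ≤ Real.exp 5 := by linarith [Real.add_one_le_exp (5 : ℝ)]
  rw [le_div_iff₀ (by positivity)]
  calc _ ≤ Real.exp (1 - L) * (Real.exp 5 * Real.exp L) := by
        refine mul_le_mul_of_nonneg_left ?_ (Real.exp_pos _).le
        nlinarith [Real.exp_pos L]
    _ = _ := by
        rw [← Real.exp_add, ← Real.exp_add]
        congr 1
        ring

theorem wt_small {ℓ L : ℕ} (hℓ : 8 ≤ ℓ) (hL : 1 ≤ L) {c a p n w w' : ℝ} (hc : 0 ≤ c)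
    (hp : 0 ≤ p) (hn : 0 ≤ n) (hw : 1 ≤ w) (hw' : 1 ≤ w') {U : Finset (Tor M)} (hs : stein U ≤ ℓ)
    (ha : a ≤ c / L ^ 3 * (p + n)) : a * Real.exp ((stein (plus U) : ℝ) / ℓ) ≤
      Real.exp 6 * c / L ^ 3 * (p * w) + Real.exp 6 * c * (n * w') := by
  have hl : (8 : ℝ) ≤ ℓ := by exact_mod_cast hℓ
  have hL' : (1 : ℝ) ≤ L := by exact_mod_cast hL
  have h5 : Real.exp ((stein (plus U) : ℝ) / ℓ) ≤ Real.exp 6 := by
    refine Real.exp_le_exp.2 ?_
    rw [div_le_iff₀ (by linarith)]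
    have h6 : stein (plus U) ≤ 6 * ℓ := by have := stein_plus U; omega
    exact_mod_cast h6
  calc _ ≤ c / L ^ 3 * (p + n) * Real.exp 6 :=
        mul_le_mul ha h5 (Real.exp_pos _).le (by positivity)
    _ = Real.exp 6 * c / L ^ 3 * p + Real.exp 6 * (c / L ^ 3) * n := by ring
    _ ≤ _ := by
        have h7 : c / (L : ℝ) ^ 3 ≤ c := div_le_self hc (one_le_pow₀ hL')
        refine add_le_add ?_ ?_
        · exact mul_le_mul_of_nonneg_left (le_mul_of_one_le_right hp hw) (by positivity)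
        · exact mul_le_mul (by gcongr) (le_mul_of_one_le_right hn hw') hn (by positivity)

theorem wt_large {L c a p n u : ℝ} (hL : 1 ≤ L) (hc : 0 ≤ c) (hp : 0 ≤ p) (hn : 0 ≤ n)
    (hu : 1 ≤ u) (ha : a ≤ c * (p + n)) : a * Real.exp u ≤
      Real.exp 6 * c / L ^ 3 * (p * Real.exp (L * u)) + Real.exp 6 * c * (n * Real.exp (2 * u)) := by
  have h5 : Real.exp u ≤ Real.exp 6 / L ^ 3 * Real.exp (L * u) := by
    refine le_trans ?_ (mul_le_mul_of_nonneg_right (exp_gain hL) (Real.exp_pos _).le)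
    rw [← Real.exp_add, Real.exp_le_exp]
    nlinarith
  have h6 : Real.exp u ≤ Real.exp 6 * Real.exp (2 * u) := by
    rw [← Real.exp_add, Real.exp_le_exp]
    linarith
  calc _ ≤ c * (p + n) * Real.exp u := mul_le_mul_of_nonneg_right ha (Real.exp_pos _).le
    _ = c * p * Real.exp u + c * n * Real.exp u := by ring
    _ ≤ c * p * (Real.exp 6 / L ^ 3 * Real.exp (L * u)) +
        c * n * (Real.exp 6 * Real.exp (2 * u)) := by gcongr
    _ = _ := by ring

open Classical in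
/-- The anchored sum after the change of the supports. -/
theorem anch_tgt {ℓ L : ℕ} (hℓ : 8 ≤ ℓ) (hL : 1 ≤ L) {c k m : ℝ} (hc : 0 ≤ c)
    {a p n f : Finset (Tor M) → ℝ} (hp0 : ∀ U, 0 ≤ p U) (hn0 : ∀ U, 0 ≤ n U)
    (hp : Anch ℓ L p k) (hn : Anch (L * ℓ) (2 * L) n m) (t : Finset (Tor M) → Finset (Tor M))
    (ht : ∀ U, t U = if stein U ≤ ℓ then plus U else U)
    (hG : ∀ X, f X ≤ ∑ U ∈ univ.filter (fun U => t U = X), a U)
    (h1 : ∀ U, U.Nonempty → stein U ≤ ℓ → a U ≤ c / L ^ 3 * (p U + n U))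
    (h2 : ∀ U, ℓ < stein U → a U ≤ c * (p U + n U)) :
    Anch (L * ℓ) L f (200 * Real.exp 6 * c / L * k + 200 * Real.exp 6 * c * m) := by
  intro z
  have hl : (8 : ℝ) ≤ ℓ := by exact_mod_cast hℓ
  have hL' : (1 : ℝ) ≤ L := by exact_mod_cast hL
  have hll : ℓ ≤ L * ℓ := Nat.le_mul_of_pos_left _ hL
  have e1 : ∀ s : ℝ, (L : ℝ) * s / ((L * ℓ : ℕ) : ℝ) = s / ℓ := fun s => by
    push_cast
    field_simp
  have e4 : ∀ s : ℝ, 2 * (L : ℝ) * s / ((L * ℓ : ℕ) : ℝ) = 2 * (s / ℓ) := fun s => by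
    rw [mul_assoc, mul_div_assoc, e1]
  have key : ∀ U, (∃ x ∈ t U, tdist x z ≤ L * ℓ) → (∃ x ∈ U, tdist x z ≤ 2 * (L * ℓ)) ∧
      a U * Real.exp ((stein (t U) : ℝ) / ℓ) ≤
        Real.exp 6 * c / L ^ 3 * (p U * Real.exp (L * (stein U : ℝ) / ℓ)) +
        Real.exp 6 * c * (n U * Real.exp (2 * ((stein U : ℝ) / ℓ))) := by
    rintro U ⟨x, hx, hd⟩
    rw [ht] at hx ⊢
    split_ifs at hx ⊢ with hs
    · obtain ⟨y, hy, hxy⟩ := mem_biUnion.1 hx
      have h3 := G.tdist_star hxy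
      have h4 := tdist_triangle y x z
      exact ⟨⟨y, hy, by omega⟩, wt_small hℓ hL hc (hp0 U) (hn0 U)
        (Real.one_le_exp (by positivity)) (Real.one_le_exp (by positivity)) hs (h1 U ⟨y, hy⟩ hs)⟩
    · refine ⟨⟨x, hx, by omega⟩, ?_⟩
      rw [mul_div_assoc (L : ℝ)]
      refine wt_large hL' hc (hp0 U) (hn0 U) ?_ (h2 U (not_le.1 hs))
      rw [le_div_iff₀ (by linarith), one_mul]
      exact_mod_cast (not_le.1 hs).le
  have b1 := anch_big (r := 2 * (L * ℓ)) (by omega : 1 ≤ ℓ) (by omega) hp0 hp z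
  have b2 := anch_big (r := 2 * (L * ℓ)) (by omega : 1 ≤ L * ℓ) (by omega) hn0 hn z
  have e2 : ((2 * (L * ℓ) : ℕ) : ℝ) / ℓ = 2 * L := by
    push_cast
    field_simp
  have e3 : ((2 * (L * ℓ) : ℕ) : ℝ) / ((L * ℓ : ℕ) : ℝ) = 2 := by
    push_cast
    field_simp
  rw [e2] at b1
  rw [e3] at b2
  simp only [e1, e4] at b2 ⊢
  generalize hS : univ.filter
    (fun U : Finset (Tor M) => ∃ x ∈ U, tdist x z ≤ 2 * (L * ℓ)) = S at b1 b2
  generalize hT : univ.filter (fun X : Finset (Tor M) => ∃ x ∈ X, tdist x z ≤ L * ℓ) = T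
  have hT' : ∀ U ∈ univ.filter (fun U => t U ∈ T), ∃ x ∈ t U, tdist x z ≤ L * ℓ := fun U hU => by
    have := (mem_filter.1 hU).2
    rw [← hT] at this
    exact (mem_filter.1 this).2
  calc _ ≤ ∑ X ∈ T, ∑ U ∈ univ.filter (fun U => t U = X),
        a U * Real.exp ((stein (t U) : ℝ) / ℓ) := by
        refine sum_le_sum fun X _ => ?_
        refine (mul_le_mul_of_nonneg_right (hG X) (Real.exp_pos _).le).trans (le_of_eq ?_)
        rw [sum_mul]
        exact sum_congr rfl fun U hU => by rw [(mem_filter.1 hU).2]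
    _ = ∑ U ∈ univ.filter (fun U => t U ∈ T), a U * Real.exp ((stein (t U) : ℝ) / ℓ) :=
        sum_fiberwise_eq_sum_filter _ _ _ _
    _ ≤ ∑ U ∈ S, (Real.exp 6 * c / L ^ 3 * (p U * Real.exp (L * (stein U : ℝ) / ℓ)) +
        Real.exp 6 * c * (n U * Real.exp (2 * ((stein U : ℝ) / ℓ)))) := by
        refine (sum_le_sum fun U hU => (key U (hT' U hU)).2).trans ?_
        refine sum_le_sum_of_subset_of_nonneg (fun U hU => ?_) fun U _ _ => ?_
        · rw [← hS]
          exact mem_filter.2 ⟨mem_univ _, (key U (hT' U hU)).1⟩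
        · have := hp0 U
          have := hn0 U
          positivity
    _ ≤ Real.exp 6 * c / L ^ 3 * (50 * (2 * L) ^ 2 * k) + Real.exp 6 * c * (50 * 2 ^ 2 * m) := by
        rw [sum_add_distrib, ← mul_sum, ← mul_sum]
        exact add_le_add (mul_le_mul_of_nonneg_left b1 (by positivity))
          (mul_le_mul_of_nonneg_left b2 (by positivity))
    _ = _ := by
        field_simp
        ring

open Classical in
/-- Averages over the points of the sets. -/
theorem sum_ball (z : Tor M) (ℓ : ℕ) {b : Finset (Tor M) → ℝ} (hb : ∀ U, 0 ≤ b U)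
    (Q : Finset (Tor M) → Prop) :
    ∑ x ∈ ball z ℓ, ∑ U ∈ univ.filter (fun U => x ∈ U ∧ Q U), (U.card : ℝ)⁻¹ * b U ≤
      ∑ U ∈ univ.filter (fun U : Finset (Tor M) => ∃ x ∈ U, tdist x z ≤ ℓ), b U := by
  calc _ ≤ ∑ x ∈ ball z ℓ, ∑ U ∈ univ.filter
        (fun U : Finset (Tor M) => ∃ x ∈ U, tdist x z ≤ ℓ),
          if x ∈ U then (U.card : ℝ)⁻¹ * b U else 0 := by
        refine sum_le_sum fun x hx => ?_
        rw [← sum_filter]
        refine sum_le_sum_of_subset_of_nonneg (fun U hU => ?_) fun U _ _ => ?_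
        · have := (mem_filter.1 hU).2.1
          exact mem_filter.2 ⟨mem_filter.2 ⟨mem_univ _, x, this, G.mem_ball.1 hx⟩, this⟩
        · exact mul_nonneg (by positivity) (hb U)
    _ ≤ _ := by
        rw [sum_comm]
        refine sum_le_sum fun U _ => ?_
        rw [← sum_filter, sum_const, nsmul_eq_mul, ← mul_assoc]
        refine mul_le_of_le_one_left (hb U) ?_
        rw [← div_eq_mul_inv]
        refine div_le_one_of_le₀ ?_ (by positivity)
        exact_mod_cast card_le_card fun x hx => (mem_filter.1 hx).2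

/-- An anchored sum without its weights, on a smaller square. -/
theorem anch_plain {ℓ r : ℕ} (h : r ≤ ℓ) {τ ε : ℝ} (hτ : 0 ≤ τ) {f : Finset (Tor M) → ℝ}
    (hf : ∀ X, 0 ≤ f X) (hA : Anch ℓ τ f ε) (z : Tor M) :
    ∑ X ∈ univ.filter (fun X : Finset (Tor M) => ∃ x ∈ X, tdist x z ≤ r), f X ≤ ε := by
  refine le_trans ?_ (hA z)
  refine (sum_le_sum fun X _ => le_mul_of_one_le_right (hf X)
    (Real.one_le_exp (by positivity : 0 ≤ τ * (stein X : ℝ) / ℓ))).trans ?_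
  refine sum_le_sum_of_subset_of_nonneg (fun X hX => ?_) fun X _ _ =>
    mul_nonneg (hf X) (Real.exp_pos _).le
  obtain ⟨x, hx, hd⟩ := (mem_filter.1 hX).2
  exact mem_filter.2 ⟨mem_univ _, x, hx, hd.trans h⟩

open Classical in
/-- The anchored sum of terms carried by the stars. -/
theorem anch_star {ℓ : ℕ} (hℓ : 8 ≤ ℓ) {τ b : ℝ} (hτ : 0 ≤ τ) (hb : 0 ≤ b)
    {f : Finset (Tor M) → ℝ}
    (hf : ∀ X, f X ≤ ∑ _x ∈ univ.filter (fun x => star x = X), b) :
    Anch ℓ τ f (9 * ℓ ^ 2 * Real.exp τ * b) := by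
  intro z
  have hl : (8 : ℝ) ≤ ℓ := by exact_mod_cast hℓ
  set T := univ.filter (fun X : Finset (Tor M) => ∃ x ∈ X, tdist x z ≤ ℓ) with hT
  calc _ ≤ ∑ X ∈ T, ∑ _x ∈ univ.filter (fun x => star x = X), b * Real.exp τ := by
        refine sum_le_sum fun X _ => ?_
        refine (mul_le_mul_of_nonneg_right (hf X) (Real.exp_pos _).le).trans ?_
        rw [sum_mul]
        refine sum_le_sum fun x hx => mul_le_mul_of_nonneg_left (Real.exp_le_exp.2 ?_) hb
        rw [← (mem_filter.1 hx).2, div_le_iff₀ (by linarith)]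
        have : (stein (star x) : ℝ) ≤ 4 := by exact_mod_cast stein_star x
        nlinarith
    _ = ∑ _x ∈ univ.filter (fun x => star x ∈ T), b * Real.exp τ :=
        sum_fiberwise_eq_sum_filter _ _ _ _
    _ ≤ ∑ _x ∈ ball z (ℓ + 1), b * Real.exp τ := by
        refine sum_le_sum_of_subset_of_nonneg (fun x hx => ?_) fun _ _ _ => by positivity
        obtain ⟨y, hy, hd⟩ := (mem_filter.1 (mem_filter.1 hx).2).2
        have h3 := G.tdist_star hy
        have h4 := tdist_triangle x y z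
        exact G.mem_ball.2 (by omega)
    _ ≤ _ := by
        rw [sum_const, nsmul_eq_mul]
        have h1 : ((ball z (ℓ + 1)).card : ℝ) ≤ (2 * (ℓ + 1) + 1) ^ 2 := by
          exact_mod_cast card_ball_le z (ℓ + 1)
        have h2 : ((ball z (ℓ + 1)).card : ℝ) ≤ 9 * ℓ ^ 2 := by nlinarith
        calc _ ≤ 9 * ℓ ^ 2 * (b * Real.exp τ) := by gcongr
          _ = _ := by ring

end Vale.Agent.P144Z.R7
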