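import Mathlib

/-! Fixed points in weighted sequence spaces. -/

namespace Vale.Agent.P144Z.R7

open Finset Filter Topology

/-- A sequence that is defined in terms of its earlier values. -/
theorem exists_causal {α : Type} [Inhabited α] (I : (ℕ → α) → ℕ → α)
    (hI : ∀ d d' j, (∀ i < j, d i = d' i) → I d j = I d' j) : ∃ d, ∀ j, d j = I d j := by
  let D : ℕ → ℕ → α := fun j => Nat.rec default (fun j d => Function.update d j (I d j)) j
  have h : ∀ j, ∀ i < j, D j i = D (i + 1) i := by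
    intro j
    induction j with
    | zero => simp
    | succ j ih =>
      intro i hi
      rcases (Nat.lt_succ_iff.1 hi).eq_or_lt with rfl | hlt
      · rfl
      · exact (Function.update_of_ne hlt.ne _ _).trans (ih i hlt)
  exact ⟨fun i => D (i + 1) i, fun j => (Function.update_self _ _ _).trans (hI _ _ _ (h j))⟩

variable {E : Type} [NormedAddCommGroup E]

/-- An increasing family of weights. -/
structure Wt (w : ℕ → E → ℝ) : Prop where
  add : ∀ j a b, w j (a + b) ≤ w j a + w j b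
  neg : ∀ j a, w j (-a) = w j a
  zero : ∀ j, w j 0 = 0
  norm : ∀ j a, ‖a‖ ≤ w j a
  cont : ∀ j, Continuous (w j)
  mono : ∀ i j a, w j a ≤ w (i + j) a

/-- The weighted ball. -/
def Bl (w : ℕ → E → ℝ) (θ r : ℝ) (c : ℕ → E) : Prop := ∀ j, w j (c j) ≤ r * θ ^ j

variable [CompleteSpace E] {w : ℕ → E → ℝ} {θ : ℝ}

theorem Wt.tail (hw : Wt w) (h0 : 0 ≤ θ) (h1 : θ ≤ 1 / 2) {r : ℝ} {u : ℕ → E} (hu : Bl w θ r u) :
    (∀ j, Summable fun i => u (i + j)) ∧ Bl w θ (2 * r) fun j => ∑' i, u (i + j) := by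
  have hr : 0 ≤ r := by simpa using ((norm_nonneg _).trans (hw.norm _ _)).trans (hu 0)
  have hs : Summable u := Summable.of_norm_bounded
    ((summable_geometric_of_lt_one h0 (by linarith)).mul_left r) fun i => (hw.norm _ _).trans (hu i)
  have hs' : ∀ j, Summable fun i => u (i + j) := fun j => (summable_nat_add_iff j).2 hs
  refine ⟨hs', fun j => le_of_tendsto' (((hw.cont j).tendsto _).comp
    (hs' j).hasSum.tendsto_sum_nat) fun n => ?_⟩
  have : w j (∑ i ∈ range n, u (i + j)) ≤ 2 * r * θ ^ j - 2 * r * θ ^ (n + j) := by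
    induction n with
    | zero => simp [hw.zero]
    | succ n ih =>
      rw [sum_range_succ, add_right_comm, pow_succ]
      have h2 := (hw.mono n j _).trans (hu (n + j))
      have h3 : 0 ≤ r * θ ^ (n + j) := by positivity
      nlinarith [hw.add j (∑ i ∈ range n, u (i + j)) (u (n + j))]
  have h4 : 0 ≤ 2 * r * θ ^ (n + j) := by positivity
  exact this.trans (by linarith)

theorem Wt.fix (hw : Wt w) (h0 : 0 ≤ θ) {η : ℝ} (hη : 0 ≤ η) (Φ : (ℕ → E) → ℕ → E)
    (h1 : ∀ c, Bl w θ η c → Bl w θ η (Φ c))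
    (h2 : ∀ c c' ρ, Bl w θ η c → Bl w θ η c' → Bl w θ ρ (c - c') → Bl w θ (ρ / 2) (Φ c - Φ c')) :
    ∃ c, Bl w θ η c ∧ Φ c = c := by
  have b0 : ∀ n, Bl w θ η (Φ^[n] 0) := fun n => by
    induction n with
    | zero => exact fun j => (hw.zero j).trans_le (by positivity)
    | succ n ih => exact Function.iterate_succ_apply' Φ n 0 ▸ h1 _ ih
  have b1 : ∀ n m, Bl w θ (η / 2 ^ n) (Φ^[m + n] 0 - Φ^[n] 0) := fun n m => by
    induction n with
    | zero => simpa using b0 m
    | succ n ih =>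
      rw [← add_assoc, Function.iterate_succ_apply', Function.iterate_succ_apply', pow_succ,
        ← div_div]
      exact h2 _ _ _ (b0 _) (b0 _) ih
  have b2 : ∀ j, ∃ a, Tendsto (fun n => Φ^[n] 0 j) atTop (𝓝 a) := fun j =>
    cauchySeq_tendsto_of_complete (cauchySeq_of_le_geometric_two (C := 2 * (η * θ ^ j)) fun n => by
      rw [dist_comm, dist_eq_norm, add_comm n]
      exact ((hw.norm j _).trans (b1 n 1 j)).trans (le_of_eq (by ring)))
  choose c hc using b2
  have b3 : ∀ n, Bl w θ (η / 2 ^ n) (c - Φ^[n] 0) := fun n j =>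
    le_of_tendsto' (((hw.cont j).tendsto _).comp
      ((((tendsto_add_atTop_iff_nat n).2 (hc j))).sub_const (Φ^[n] 0 j))) fun m => b1 n m j
  have b4 : Bl w θ η c := by simpa using b3 0
  refine ⟨c, b4, funext fun j => ?_⟩
  refine tendsto_nhds_unique ?_ ((tendsto_add_atTop_iff_nat 1).2 (hc j))
  rw [tendsto_iff_norm_sub_tendsto_zero]
  have b5 := (tendsto_pow_atTop_nhds_zero_of_lt_one (r := (1 / 2 : ℝ)) (by norm_num)
    (by norm_num)).const_mul (η / 2 * θ ^ j)
  rw [mul_zero] at b5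
  refine squeeze_zero (fun _ => norm_nonneg _) (fun n => ?_) b5
  rw [norm_sub_rev, Function.iterate_succ_apply']
  refine ((hw.norm j _).trans (h2 _ _ _ b4 (b0 n) (b3 n) j)).trans (le_of_eq ?_)
  rw [one_div, inv_pow]
  ring

/-- A solution of the recursion that tends to zero. -/
theorem Wt.solve (hw : Wt w) (h0 : 0 ≤ θ) (h1 : θ ≤ 1 / 2) {η : ℝ} (hη : 0 ≤ η)
    (I : (ℕ → E) → ℕ → E) (a1 : ∀ c, Bl w θ η c → Bl w θ (η / 4) (I c))
    (a2 : ∀ c c' ρ, Bl w θ η c → Bl w θ η c' → Bl w θ ρ (c - c') → Bl w θ (ρ / 4) (I c - I c')) :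
    ∃ c, Bl w θ η c ∧ ∀ j, c (j + 1) = c j + I c j := by
  obtain ⟨c, hc, he⟩ := hw.fix h0 hη (fun c j => -∑' i, I c (i + j)) (fun c hc j => by
      rw [hw.neg]
      refine ((hw.tail h0 h1 (a1 c hc)).2 j).trans ?_
      gcongr
      linarith) fun c c' ρ hc hc' hρ j => by
    have := (hw.tail h0 h1 (a2 c c' ρ hc hc' hρ)).2 j
    simp only [Pi.sub_apply] at this ⊢
    rw [((hw.tail h0 h1 (a1 c hc)).1 j).tsum_sub ((hw.tail h0 h1 (a1 c' hc')).1 j)] at this
    rw [neg_sub_neg, ← neg_sub, hw.neg]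
    exact this.trans (le_of_eq (by ring))
  refine ⟨c, hc, fun j => ?_⟩
  have e1 := congrFun he j
  have e2 := congrFun he (j + 1)
  rw [((hw.tail h0 h1 (a1 c hc)).1 j).tsum_eq_zero_add] at e1
  simp only [zero_add, add_assoc, add_comm 1 j] at e1
  rw [← e2, ← e1]
  abel

end Vale.Agent.P144Z.R7
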