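import Vale.Agent.P144Z.R7.Step
import Vale.Agent.P144Z.R7.Fix

/-! The bulk flow with prescribed couplings. -/

namespace Vale.Agent.P144Z.R7

open Finset Matrix

/-- The weighted size of the two couplings. -/
noncomputable def wv (L j : ℕ) (c : ℝ × ℝ) : ℝ := hb L j ^ 2 * (sc L j * |c.1| + |c.2|)

theorem sc_succ (L j : ℕ) : sc L (j + 1) = L * sc L j := by
  simp only [sc]
  ring

theorem hb_succ (L j : ℕ) : hb L (j + 1) = 2 * hb L j := by
  simp only [hb]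
  ring

theorem sc_mono {L : ℕ} (hL : 1 ≤ L) (i j : ℕ) : sc L j ≤ sc L (i + j) :=
  Nat.mul_le_mul_left _ (Nat.pow_le_pow_right hL (by omega))

theorem le_sc {L : ℕ} (hL : 1 ≤ L) (j : ℕ) : 8 ≤ sc L j := by
  simpa [sc] using sc_mono hL j 0

theorem le_hb {L : ℕ} (hL : 1 ≤ L) (j : ℕ) : (L : ℝ) ^ 2 ≤ hb L j := by
  have : (1 : ℝ) ≤ L := by exact_mod_cast hL
  exact (pow_le_pow_right₀ this (by norm_num)).trans
    (le_mul_of_one_le_right (by positivity) (one_le_pow₀ one_le_two))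

theorem one_le_hb {L : ℕ} (hL : 1 ≤ L) (j : ℕ) : 1 ≤ hb L j :=
  (one_le_pow₀ (by exact_mod_cast hL)).trans (le_hb hL j)

theorem th_pos {L : ℕ} (hL : 1 ≤ L) : 0 < th L := by
  rw [th]
  positivity

theorem th_le {L : ℕ} (hL : 4 ≤ L) : th L ≤ 1 / 2 := by
  rw [th, one_div]
  refine inv_anti₀ two_pos (Real.le_sqrt_of_sq_le ?_)
  exact_mod_cast hL

theorem le_wv {L : ℕ} (hL : 1 ≤ L) (j : ℕ) (a : ℝ × ℝ) : 8 * |a.1| + |a.2| ≤ wv L j a := by
  have h1 : (8 : ℝ) ≤ sc L j := by exact_mod_cast le_sc hL j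
  refine le_trans ?_ (le_mul_of_one_le_left (by positivity) (one_le_pow₀ (one_le_hb hL j)))
  gcongr

theorem wt_wv {L : ℕ} (hL : 1 ≤ L) : Wt (wv L) where
  add j a b := by
    rw [wv, wv, wv, ← mul_add]
    refine mul_le_mul_of_nonneg_left ?_ (by positivity)
    have := mul_le_mul_of_nonneg_left (abs_add_le a.1 b.1) (Nat.cast_nonneg (α := ℝ) (sc L j))
    simp only [Prod.fst_add, Prod.snd_add]
    linarith [abs_add_le a.2 b.2]
  neg j a := by simp [wv]
  zero j := by simp [wv]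
  norm j a := by
    refine le_trans ?_ (le_wv hL j a)
    rw [Prod.norm_def, Real.norm_eq_abs, Real.norm_eq_abs]
    exact max_le (by linarith [abs_nonneg a.1, abs_nonneg a.2]) (by linarith [abs_nonneg a.1])
  cont j := by
    unfold wv
    fun_prop
  mono i j a := by
    have h1 : (sc L j : ℝ) ≤ sc L (i + j) := by exact_mod_cast sc_mono hL i j
    have h2 : hb L j ≤ hb L (i + j) :=
      mul_le_mul_of_nonneg_left (pow_le_pow_right₀ one_le_two (by omega)) (by positivity)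
    have h3 := one_le_hb hL j
    unfold wv
    gcongr

/-- The size of the carried terms. -/
theorem exists_car : ∃ c : ℝ, 1 ≤ c ∧ ∀ g : Geo, Pl g → ∀ (ℓ : ℕ) (h τ : ℝ), 8 ≤ ℓ → 4 * ℓ ≤ g.M →
    0 < h → 0 ≤ τ → ∀ (s s' : g.St) (a a' : ℝ × ℝ), (∀ x, s.v x = a.1 • g.O1 x + a.2 • g.O2 x) →
    (∀ x, s'.v x = a'.1 • g.O1 x + a'.2 • g.O2 x) →
    Anch ℓ τ (fun X => g.pn ℓ h 1 X (s.car X - s'.car X))
      (c * Real.exp τ * (h ^ 2 * (ℓ * |(a - a').1| + |(a - a').2|))) := by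
  obtain ⟨C, hC, H⟩ := Geo.pn_local
  refine ⟨9 * C, by linarith, fun g hg ℓ h τ h8 hM h0 hτ s s' a a' hs hs' => ?_⟩
  have hl : (0 : ℝ) < ℓ := by exact_mod_cast (by omega : 0 < ℓ)
  have h1 : 1 ≤ ℓ := by omega
  have := hg.emp
  refine anch_mono (anch_star (b := |(a - a').1| * (C * h ^ 2 / ℓ) +
    |(a - a').2| * (C * h ^ 2 / ℓ ^ 2)) h8 hτ (by positivity) fun X => ?_) (fun _ => le_rfl)
    (le_of_eq (by field_simp))
  simp only [Geo.St.car, univ_eq_empty (α := g.K), filter_empty, sum_empty, add_zero]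
  rw [← sum_sub_distrib]
  refine (pn_sum hg.sign h1 h0 one_pos X _ _).trans ?_
  refine sum_le_sum fun x hx => ?_
  obtain ⟨b1, b2, -⟩ := H g hg.sign ℓ h 1 h8 hM h0 one_pos x (hg.flat _ _)
  have e : s.v x - s'.v x = (a - a').1 • g.O1 x + (a - a').2 • g.O2 x := by
    rw [hs, hs', Prod.fst_sub, Prod.snd_sub]
    module
  rw [e, ← (mem_filter.1 hx).2]
  refine (pn_add hg.sign h1 h0 one_pos _ _ _).trans ?_
  rw [pn_smul hg.sign h1 h0 one_pos, pn_smul hg.sign h1 h0 one_pos]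
  gcongr

/-- States with small couplings and a small remainder. -/
structure Good (L : ℕ) (C η : ℝ) (g : Geo) (j : ℕ) (s : g.St) (a : ℝ × ℝ) : Prop where
  wf : g.Wf s
  v : ∀ x, s.v x = a.1 • g.O1 x + a.2 • g.O2 x
  w : wv L j a ≤ η * th L ^ j
  K : Anch (sc L j) L (fun X => g.pn (sc L j) (hb L j) 1 X (s.K X)) (η / C * th L ^ j)

/-- The estimate for one step. -/
def OneStep (L : ℕ) (C η : ℝ) : Prop :=
  ∀ g : Geo, Pl g → ∀ j, 16 * sc L (j + 1) ≤ g.M → ∀ (s s' : g.St) (a a' : ℝ × ℝ),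
    Good L C η g j s a → Good L C η g j s' a' → ∀ ρ, 0 ≤ ρ → wv L j (a - a') ≤ ρ * th L ^ j →
    Anch (sc L j) L (fun X => g.pn (sc L j) (hb L j) 1 X (s.K X - s'.K X)) (ρ / C * th L ^ j) →
    (∀ d d', Anch (sc L (j + 1)) L (fun X => g.pn (sc L (j + 1)) (hb L (j + 1)) 1 X
      ((g.step j (sc L j) (sc L (j + 1)) d s).K X - (g.step j (sc L j) (sc L (j + 1)) d' s').K X))
      (ρ / C * th L ^ (j + 1))) ∧
    ∀ i : ℝ × ℝ, (∀ x, g.nu x (g.out (sc L j) (sc L (j + 1)) s x -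
        g.out (sc L j) (sc L (j + 1)) s' x) = i.1 ∧ g.ze x (g.out (sc L j) (sc L (j + 1)) s x -
        g.out (sc L j) (sc L (j + 1)) s' x) = i.2) → wv L j i ≤ ρ / 4 * th L ^ j

theorem car_zero (g : Geo) (X : Finset g.P) : (g.srcSt 0).car X = 0 := by
  simp [Geo.St.car, Geo.srcSt]

theorem out_zero (g : Geo) (ℓ ℓ' : ℕ) (x : g.P) : g.out ℓ ℓ' (g.srcSt 0) x = 0 := by
  simp [Geo.out, Geo.rem, Geo.intg, Geo.Cl_zero, car_zero]

theorem one_step : ∃ L₀ : ℕ, ∀ L ≥ L₀, 8 ≤ L ∧ ∃ C : ℝ, 1 ≤ C ∧ ∃ η₀ > 0, ∀ η, 0 ≤ η → η ≤ η₀ →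
    OneStep L C η := by
  obtain ⟨L₀, H⟩ := step_pl
  obtain ⟨c, hc, Hc⟩ := exists_car
  refine ⟨max L₀ 8, fun L hL => ⟨le_of_max_le_right hL, ?_⟩⟩
  obtain ⟨C, hC, H⟩ := H L (le_of_max_le_left hL)
  have hL1 : 1 ≤ L := by omega
  have t0 := th_pos hL1
  have t1 := th_le (by omega : 4 ≤ L)
  obtain ⟨B, hB, hB1⟩ : ∃ B, c * Real.exp L = B ∧ 1 ≤ B :=
    ⟨_, rfl, one_le_mul_of_one_le_of_one_le hc (Real.one_le_exp (by positivity))⟩
  refine ⟨8 * C, by linarith, th L / (256 * C ^ 2 * B ^ 2), by positivity,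
    fun η η0 η1 g hg j hM s s' a a' hs hs' ρ ρ0 ha hK => ?_⟩
  have h8 := le_sc hL1 j
  have h1 : 1 ≤ sc L j := by omega
  have hh : 0 < hb L j := one_pos.trans_le (one_le_hb hL1 j)
  have hll : sc L j ≤ L * sc L j := Nat.le_mul_of_pos_left _ hL1
  rw [sc_succ] at hM
  rw [sc_succ, hb_succ, pow_succ]
  have θ0 : 0 < th L ^ j := by positivity
  have θ1 : th L ^ j ≤ 1 := pow_le_one₀ t0.le (by linarith)
  obtain ⟨w1, v1, s1, k1⟩ := hs
  obtain ⟨w2, v2, s2, k2⟩ := hs'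
  generalize th L ^ j = θ at *
  have car := fun (t t' : g.St) b b' ht ht' =>
    Hc g hg _ _ L h8 (by omega) hh (by positivity) t t' b b' ht ht'
  rw [hB] at car
  have two : ∀ {r w : ℝ}, 0 ≤ r → w ≤ r * θ → r / (8 * C) * θ + B * w ≤ 2 * B * r * θ :=
    fun {r w} r0 hw => by
      have e1 : r / (8 * C) ≤ B * r :=
        (div_le_self r0 (by linarith)).trans (le_mul_of_one_le_left r0 hB1)
      nlinarith [mul_le_mul_of_nonneg_left hw (by linarith : 0 ≤ B)]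
  have aH : ∀ {t b}, g.Wf t → (∀ x, t.v x = b.1 • g.O1 x + b.2 • g.O2 x) → wv L j b ≤ η * θ →
      Anch (sc L j) L (fun X => g.pn (sc L j) (hb L j) 1 X (t.K X)) (η / (8 * C) * θ) →
      Anch (sc L j) L (fun X => g.pn (sc L j) (hb L j) 1 X (t.H X)) (2 * B * η * θ) :=
    fun {t b} _ h2 h3 h4 => anch_mono
      (anch_add h4 (car t (g.srcSt 0) b 0 h2 fun x => by simp [Geo.srcSt]))
      (fun X => by
        rw [car_zero, sub_zero]
        exact pn_add hg.sign h1 hh one_pos X _ _) (by rw [sub_zero]; exact two η0 h3)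
  have aD : Anch (sc L j) L (fun X => g.pn (sc L j) (hb L j) 1 X (s.H X - s'.H X))
      (2 * B * ρ * θ) := anch_mono (anch_add hK (car s s' a a' v1 v2))
    (fun X => by
      rw [Geo.St.H, Geo.St.H, add_sub_add_comm]
      exact pn_add hg.sign h1 hh one_pos X _ _) (two ρ0 ha)
  have n1 : 256 * C ^ 2 * B ^ 2 * η ≤ th L := by
    rwa [le_div_iff₀ (by positivity), mul_comm] at η1
  have n2 : C * (2 * B * η * θ) * (2 * B * ρ * θ) ≤ th L / (64 * C) * (ρ * θ) := by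
    have e1 : 4 * C * B ^ 2 * η ≤ th L / (64 * C) := by
      rw [le_div_iff₀ (by positivity)]
      linarith
    calc _ = 4 * C * B ^ 2 * η * θ * (ρ * θ) := by ring
      _ ≤ th L / (64 * C) * 1 * (ρ * θ) := by gcongr
      _ = _ := by ring
  have n3 : C * (2 * B * η * θ) ≤ 1 := by
    have e1 : C * B ≤ (C * B) ^ 2 := le_self_pow₀ (one_le_mul_of_one_le_of_one_le hC hB1) two_ne_zero
    calc _ = 2 * (C * B) * η * θ := by ring
      _ ≤ 2 * (C * B) ^ 2 * η * 1 := by gcongr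
      _ ≤ _ := by nlinarith
  have key := H g hg j _ _ h8 hM (le_hb hL1 j) s s' w1 w2 _ _ _ n3
    (aH w1 v1 s1 k1) (aH w2 v2 s2 k2) aD hK
  have ρθ : 0 ≤ ρ * θ := by positivity
  refine ⟨fun d d' => anch_mono (key d d').1 (fun _ => le_rfl) ?_, fun i hi => ?_⟩
  · refine (add_le_add le_rfl n2).trans ?_
    have : 0 ≤ th L / C * (ρ * θ) := by positivity
    calc _ = 3 / 64 * (th L / C * (ρ * θ)) := by ring
      _ ≤ 1 / 8 * (th L / C * (ρ * θ)) := by linarith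
      _ = _ := by ring
  · have k3 := (key 0 0).2 0
    simp only [(hi _).1, (hi _).2, sum_const, nsmul_eq_mul, card_ball_eq _
      (by omega : 2 * sc L j + 1 ≤ g.M)] at k3
    have hl : (0 : ℝ) < sc L j := by exact_mod_cast h1
    have k4 : (sc L j : ℝ) ^ 2 * wv L j i ≤ sc L j ^ 2 * (ρ / 4 * θ) := by
      calc _ = hb L j ^ 2 * (sc L j ^ 2 * (sc L j * |i.1| + |i.2|)) := by rw [wv]; ring
        _ ≤ _ := le_trans (by gcongr; push_cast; nlinarith) k3
        _ = sc L j ^ 2 * (1 / 8 * (ρ * θ) + C * (2 * B * η * θ) * (2 * B * ρ * θ)) := by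
            field_simp
        _ ≤ _ := by
            have : th L / (64 * C) ≤ 1 / 8 := by
              rw [div_le_iff₀ (by positivity)]
              linarith
            gcongr
            nlinarith
    exact le_of_mul_le_mul_left k4 (by positivity)

end Vale.Agent.P144Z.R7
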