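import Vale.Agent.P144Z.R7.Flow
import Vale.Agent.P144Z.R6.Main

/-! The increments of the two couplings. -/

namespace Vale.Agent.P144Z.R7

open Finset Matrix

theorem flow_congr (g : Geo) (L : ℕ) (q : Par) {d d' : ℕ → ℝ × ℝ} (j : ℕ)
    (h : ∀ i < j, d i = d' i) : g.flow L q d j = g.flow L q d' j := by
  induction j with
  | zero => rfl
  | succ j ih => rw [Geo.flow, Geo.flow, h j (by omega), ih fun i hi => h i (by omega)]

theorem coef_of_Ext {g : Geo} (hg : Pl g) (hM : 8 ≤ g.M) {x : g.P} {F : g.E} {a : ℝ × ℝ}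
    (h : g.Ext x F = a.1 • g.O1 x + a.2 • g.O2 x) : g.nu x F = a.1 ∧ g.ze x F = a.2 := by
  obtain ⟨e1, e2⟩ := Geo.coef_Ext hg.sign hM (hg.flat x 2) F
  obtain ⟨o1, o2, o3, o4, -⟩ := Geo.coef_O hg.sign hM (hg.flat x 2)
  have n1 : g.nu x (g.Ext x F) = g.nu x F := by rw [Geo.nu, Geo.nu, e1]
  have n2 : g.ze x (g.Ext x F) = g.ze x F := by simp only [Geo.ze, n1, e2]
  rw [← n1, ← n2, h, ← nuL_apply, ← zeL_apply, map_add, map_add, map_smul, map_smul, map_smul,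
    map_smul, nuL_apply, nuL_apply, zeL_apply, zeL_apply, o1, o2, o3, o4]
  simp

/-- The collected local term. -/
noncomputable abbrev ot (g : Geo) (L : ℕ) (q : Par) (d : ℕ → ℝ × ℝ) (j : ℕ) (x : g.P) : g.E :=
  g.out (sc L j) (sc L (j + 1)) (g.flow L q d j) x

/-- A large torus. -/
abbrev big (L R j : ℕ) : Geo := geo0 (16 * (R + 1) + 16 * sc L j + 1)

/-- The increment of the couplings. -/
noncomputable def inc (L : ℕ) (q : Par) (d : ℕ → ℝ × ℝ) (j : ℕ) : ℝ × ℝ :=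
  ((big L q.R (j + 1)).nu 0 (ot _ L q d j 0), (big L q.R (j + 1)).ze 0 (ot _ L q d j 0))

theorem inc_congr (L : ℕ) (q : Par) {d d' : ℕ → ℝ × ℝ} (j : ℕ) (h : ∀ i < j, d i = d' i) :
    inc L q d j = inc L q d' j := by
  simp only [inc, ot, flow_congr _ L q j h]

theorem inc_spec {L : ℕ} (hL : 8 ≤ L) {q : Par} (hq : q.Ok) (d : ℕ → ℝ × ℝ) (j M : ℕ) [NeZero M]
    (h1 : 16 * (q.R + 1) ≤ M) (h2 : 16 * sc L (j + 1) ≤ M) (x : (geo0 M).P) :
    (geo0 M).Ext x (ot _ L q d j x) =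
      (inc L q d j).1 • (geo0 M).O1 x + (inc L q d j).2 • (geo0 M).O2 x := by
  obtain ⟨c, i, H⟩ := Geo.ag_sym L hL q hq d j
  have := coef_of_Ext (pl0 _) (by change 8 ≤ _ + 1; omega)
    ((H (16 * (q.R + 1) + 16 * sc L (j + 1) + 1) (by omega)).2 (by omega) 0)
  rw [show inc L q d j = i from Prod.ext this.1 this.2]
  exact (H M h1).2 h2 x

/-- Parameters and adjustments that produce the couplings `c`. -/
structure Dat (L : ℕ) (C η : ℝ) (q : Par) (d c : ℕ → ℝ × ℝ) : Prop where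
  ok : q.Ok
  c1 : q.Z * (q.x - tc) = (c 0).1
  c2 : q.Z - 1 = (c 0).2
  st : ∀ j, c (j + 1) = c j + inc L q d j + d j
  bl : Bl (wv L) (th L) η c
  K0 : ∀ (M : ℕ) [NeZero M],
    Anch 8 L (fun X => (geo0 M).pn 8 (L ^ 3) 1 X (((geo0 M).init q).K X)) (η / C)

variable {L : ℕ} {C η : ℝ} {q q' : Par} {d d' c c' : ℕ → ℝ × ℝ}

theorem good_zero {g : Geo} (hg : Pl g) (hL : 8 ≤ L) (hC : 1 ≤ C) (hη : 0 ≤ η) (j : ℕ) :
    Good L C η g j (g.srcSt 0) 0 := by
  have t0 := th_pos (by omega : 1 ≤ L)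
  refine ⟨(Geo.wf_srcSt 0).1, fun x => by simp [Geo.srcSt], ?_, fun z => ?_⟩
  · exact ((wt_wv (by omega)).zero j).trans_le (by positivity)
  · have h8 := le_sc (by omega : 1 ≤ L) j
    have := fun X => pn_zero hg.sign (by omega : 1 ≤ sc L j)
      (one_pos.trans_le (one_le_hb (by omega : 1 ≤ L) j)) one_pos X
    simp only [Geo.srcSt, Pi.zero_apply, this, zero_mul, sum_const_zero]
    positivity

theorem good_flow (hL : 8 ≤ L) (hC : 1 ≤ C) (hη : 0 ≤ η) (H : OneStep L C η) (D : Dat L C η q d c)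
    (M : ℕ) [NeZero M] (hM : 16 * (q.R + 1) ≤ M) (j : ℕ) (hj : 16 * sc L j ≤ M) :
    Good L C η (geo0 M) j ((geo0 M).flow L q d j) (c j) := by
  induction j with
  | zero =>
    refine ⟨Geo.wf_flow (pl0 M).ok L q d 0, fun x => ?_, D.bl 0, ?_⟩
    · rw [← D.c1, ← D.c2]
      rfl
    · simpa [sc, hb, Geo.flow] using D.K0 M
  | succ j ih =>
    have hj' := sc_mono (by omega : 1 ≤ L) 1 j
    rw [add_comm] at hj'
    have G := ih (by omega)
    refine ⟨Geo.wf_flow (pl0 M).ok L q d _, fun x => ?_, D.bl _, ?_⟩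
    · simp only [Geo.flow, Geo.step, G.v, inc_spec hL D.ok d j M hM hj x, D.st, Prod.fst_add,
        Prod.snd_add]
      module
    · have := (H _ (pl0 M) j hj _ _ _ _ G (good_zero (pl0 M) hL hC hη j) η hη
        (by simpa using G.w) (by simpa [Geo.srcSt] using G.K)).1 (d j) 0
      rw [Geo.step_zero] at this
      simpa [Geo.srcSt, Geo.flow] using this

theorem inc_one (hL : 8 ≤ L) (hC : 1 ≤ C) (hη : 0 ≤ η) (H : OneStep L C η) (D : Dat L C η q d c) :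
    Bl (wv L) (th L) (η / 4) (inc L q d) := by
  intro j
  have hj' := sc_mono (by omega : 1 ≤ L) 1 j
  rw [add_comm] at hj'
  have G := good_flow hL hC hη H D (16 * (q.R + 1) + 16 * sc L (j + 1) + 1) (by omega) j (by omega)
  refine (H _ (pl0 _) j (by change _ ≤ _ + 1; omega) _ _ _ _ G (good_zero (pl0 _) hL hC hη j) η hη
    (by simpa using G.w) (by simpa [Geo.srcSt] using G.K)).2 _ fun x => ?_
  rw [out_zero, sub_zero]
  exact coef_of_Ext (pl0 _) (by change 8 ≤ _ + 1; omega)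
    (inc_spec hL D.ok d j _ (by omega) (by omega) x)

theorem inc_two (hL : 8 ≤ L) (hC : 1 ≤ C) (hη : 0 ≤ η) (H : OneStep L C η) (D : Dat L C η q d c)
    (D' : Dat L C η q' d' c') (hR : q'.R = q.R) {ρ : ℝ} (hρ : 0 ≤ ρ)
    (hc : Bl (wv L) (th L) ρ (c - c')) (h0 : ∀ (M : ℕ) [NeZero M], Anch 8 L (fun X =>
      (geo0 M).pn 8 (L ^ 3) 1 X (((geo0 M).init q).K X - ((geo0 M).init q').K X)) (ρ / C)) :
    Bl (wv L) (th L) (ρ / 4) (inc L q d - inc L q' d') := by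
  intro j
  obtain ⟨M, hM, h1, h2⟩ : ∃ M, M ≠ 0 ∧ 16 * (q.R + 1) ≤ M ∧ 16 * sc L (j + 1) ≤ M :=
    ⟨16 * (q.R + 1) + 16 * sc L (j + 1), by omega, by omega, by omega⟩
  have : NeZero M := ⟨hM⟩
  have h1' : 16 * (q'.R + 1) ≤ M := hR ▸ h1
  have hj : ∀ i, 16 * sc L (i + 1) ≤ M → 16 * sc L i ≤ M := fun i hi => by
    have := sc_mono (by omega : 1 ≤ L) 1 i
    rw [add_comm] at this
    omega
  have st := fun i hi => H _ (pl0 M) i hi _ _ _ _ (good_flow hL hC hη H D M h1 i (hj i hi))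
    (good_flow hL hC hη H D' M h1' i (hj i hi)) ρ hρ (hc i)
  have K : ∀ i, 16 * sc L i ≤ M → Anch (sc L i) L (fun X => (geo0 M).pn (sc L i) (hb L i) 1 X
      (((geo0 M).flow L q d i).K X - ((geo0 M).flow L q' d' i).K X)) (ρ / C * th L ^ i) := by
    intro i hi
    induction i with
    | zero => simpa [sc, hb, Geo.flow] using h0 M
    | succ i ih => exact (st i hi (ih (hj i hi))).1 _ _
  refine (st j h2 (K j (hj j h2))).2 _ fun x => ?_
  have h8 : 8 ≤ (geo0 M).M := by change 8 ≤ M; omega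
  obtain ⟨a1, a2⟩ := coef_of_Ext (pl0 M) h8 (inc_spec hL D.ok d j M h1 h2 x)
  obtain ⟨b1, b2⟩ := coef_of_Ext (pl0 M) h8 (inc_spec hL D'.ok d' j M h1' h2 x)
  rw [← nuL_apply, ← zeL_apply, map_sub, map_sub, nuL_apply, nuL_apply, zeL_apply, zeL_apply,
    a1, a2, b1, b2]
  exact ⟨rfl, rfl⟩

end Vale.Agent.P144Z.R7
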