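import Vale.Agent.P144Z.R2.Main
import Vale.Agent.P144Z.R3W.Main
import Vale.Agent.P144Z.R4a.Main
import Vale.Agent.P144Z.R4b.Main
import Vale.Agent.P144Z.R7.Sums

/-! The bulk step. -/

namespace Vale.Agent.P144Z

open Finset Matrix

namespace R7

section Pn

variable {g : Geo} {ℓ : ℕ} {h β : ℝ} (hA : IsSign g.A) (hℓ : 1 ≤ ℓ) (hh : 0 < h) (hβ : 0 < β)
include hA hℓ hh hβ

theorem pn_nonneg (X : Finset g.P) (F : g.E) : 0 ≤ g.pn ℓ h β X F := by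
  obtain ⟨𝓛, -, h2⟩ := Geo.exists_locSys hA hℓ hh hβ
  exact h2 ▸ 𝓛.p_nonneg X F

theorem pn_add (X : Finset g.P) (F G : g.E) :
    g.pn ℓ h β X (F + G) ≤ g.pn ℓ h β X F + g.pn ℓ h β X G := by
  obtain ⟨𝓛, -, h2⟩ := Geo.exists_locSys hA hℓ hh hβ
  exact h2 ▸ 𝓛.p_add X F G

theorem pn_smul (X : Finset g.P) (c : ℝ) (F : g.E) :
    g.pn ℓ h β X (c • F) = |c| * g.pn ℓ h β X F := by
  obtain ⟨𝓛, -, h2⟩ := Geo.exists_locSys hA hℓ hh hβ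
  exact h2 ▸ 𝓛.p_smul X c F

theorem pn_zero (X : Finset g.P) : g.pn ℓ h β X 0 = 0 := by
  simpa using pn_smul hA hℓ hh hβ X 0 0

theorem pn_sub (X : Finset g.P) (F G : g.E) :
    g.pn ℓ h β X (F - G) ≤ g.pn ℓ h β X F + g.pn ℓ h β X G := by
  have h1 := pn_smul hA hℓ hh hβ X (-1) G
  have h2 := pn_add hA hℓ hh hβ X F ((-1 : ℝ) • G)
  rw [h1, neg_one_smul, ← sub_eq_add_neg] at h2
  simpa using h2

theorem pn_sum (X : Finset g.P) {ι : Type} (t : Finset ι) (F : ι → g.E) :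
    g.pn ℓ h β X (∑ i ∈ t, F i) ≤ ∑ i ∈ t, g.pn ℓ h β X (F i) := by
  classical
  induction t using Finset.induction_on with
  | empty => simp [pn_zero hA hℓ hh hβ]
  | insert i t hi ih =>
    rw [sum_insert hi, sum_insert hi]
    exact (pn_add hA hℓ hh hβ X _ _).trans (by linarith)

theorem pn_sub_noF {X : Finset g.P} {F : g.E} (hF : F ∈ g.sub X) :
    g.pn ℓ h β X (F - g.noF F) ≤ 2 * g.pn ℓ h β X F := by
  linarith [pn_sub hA hℓ hh hβ X F (g.noF F), Geo.pn_noF_le hA hℓ hh hβ hF]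

end Pn

/-- The quadratic coefficient as a linear map. -/
noncomputable def btL (g : Geo) (a b : g.S → ℝ) : g.E →ₗ[ℝ] ℝ :=
  aug.toLinearMap ∘ₗ del b ∘ₗ del a ∘ₗ (Ev.val (S := g.S)).toLinearMap

/-- The coefficient `nu` as a linear map. -/
noncomputable def nuL (g : Geo) (x : g.P) : g.E →ₗ[ℝ] ℝ :=
  -btL g (g.ex (tf0 g.A x 0)) (g.ex (tf0 g.A x 1))

theorem nuL_apply (g : Geo) (x : g.P) (F : g.E) : nuL g x F = g.nu x F := rfl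

/-- The coefficient `ze` as a linear map. -/
noncomputable def zeL (g : Geo) (x : g.P) : g.E →ₗ[ℝ] ℝ :=
  tc⁻¹ • ((∑ a, ∑ b, ∑ i, Geo.kt a b i • btL g (g.ex (tf0 g.A x a)) (g.ex (tf1 g.A x b i))) -
    nuL g x)

theorem zeL_apply (g : Geo) (x : g.P) (F : g.E) : zeL g x F = g.ze x F := by
  simp only [zeL, LinearMap.smul_apply, LinearMap.sub_apply, LinearMap.sum_apply, smul_eq_mul]
  exact inv_mul_eq_div _ _

/-- The extraction as a linear map. -/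
noncomputable def extL (g : Geo) (x : g.P) : g.E →ₗ[ℝ] g.E where
  toFun := g.Ext x
  map_add' := g.Ext_add x
  map_smul' := g.Ext_smul x

/-- Geometries without fluxes and without sources. -/
structure Pl (g : Geo) : Prop where
  sign : IsSign g.A
  flat : ∀ x r, Flat g.A x r
  emp : IsEmpty g.K

theorem pl0 (M : ℕ) [NeZero M] : Pl (geo0 M) :=
  ⟨fun _ => Or.inl rfl, fun _ _ f _ => by simp [flux, geo0], inferInstanceAs (IsEmpty Empty)⟩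

section Pl

variable {g : Geo} (hg : Pl g)
include hg

theorem Pl.ok : g.Ok := ⟨hg.sign, fun k => hg.emp.elim k⟩

theorem Pl.noB {X : Finset g.P} {F : g.E} (hF : F ∈ g.sub X) : g.noB F = F :=
  Geo.noB_of_no_src hF fun k => hg.emp.elim k

theorem Pl.xtr (ℓ ℓ' : ℕ) (U : Finset g.P) : g.Xtr ℓ ℓ' U ↔ stein U ≤ ℓ :=
  ⟨fun h => h.1, fun h => ⟨h, fun x _ => hg.flat x _⟩⟩

theorem Pl.xtr_eq (j ℓ ℓ' : ℕ) (U : Finset g.P) (F : g.E) : g.xtr j ℓ ℓ' U F =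
    if stein U ≤ ℓ then ((U.card : ℝ)⁻¹) • ∑ x ∈ U, g.Ext x F else 0 := by
  have := hg.emp
  rw [Geo.xtr, univ_eq_empty (α := g.K), filter_empty, sum_empty, add_zero]
  simp only [hg.xtr]

theorem Pl.xtr_sub (j ℓ ℓ' : ℕ) (U : Finset g.P) (F F' : g.E) :
    g.xtr j ℓ ℓ' U (F - F') = g.xtr j ℓ ℓ' U F - g.xtr j ℓ ℓ' U F' := by
  simp only [hg.xtr_eq]
  split_ifs
  · rw [← smul_sub, ← sum_sub_distrib]
    exact congrArg _ (sum_congr rfl fun x _ => (extL g x).map_sub F F')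
  · simp

end Pl

/-- The remainder in terms of the linear and the nonlinear part. -/
theorem rem_eq {g : Geo} {s : g.St} (hs : g.Wf s) (ℓ ℓ' : ℕ) (U : Finset g.P) {E : g.E →ₗ[ℝ] g.E}
    (hE : E = evG (g.exM (covP (Dm g.A) ℓ ℓ'))) : g.rem ℓ ℓ' s U =
      (E (s.K U) - g.noF (E (s.K U))) +
        ((Cl E s.H U - E (s.H U)) - g.noF (Cl E s.H U - E (s.H U))) := by
  have h1 := hs.Lin_car (covP_anti (C.Dm_anti g.A) ℓ ℓ') U
  rw [Geo.Lin, ← hE] at h1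
  rw [Geo.rem, Geo.intg, ← hE]
  simp only [Geo.St.H, map_add, map_sub]
  linear_combination h1

theorem sqrt_ratio {L ℓ : ℕ} (hℓ : 1 ≤ ℓ) : √((ℓ : ℝ) / ((L * ℓ : ℕ) : ℝ)) = (√(L : ℝ))⁻¹ := by
  have hl : (ℓ : ℝ) ≠ 0 := by positivity
  rw [← Real.sqrt_inv]
  congr 1
  push_cast
  rw [mul_comm, ← div_div, div_self hl, one_div]

/-- The contraction of one term. -/
theorem exists_tgt : ∃ c : ℝ, 1 ≤ c ∧ ∀ g : Geo, Pl g → ∀ (L j ℓ : ℕ) (h : ℝ), c ≤ √(L : ℝ) →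
    8 ≤ ℓ → 16 * (L * ℓ) ≤ g.M → 0 < h → ∀ U, ∀ F ∈ g.sub U, g.noF F = 0 →
    (U.Nonempty → stein U ≤ ℓ → g.pn (L * ℓ) (2 * h) 1 (g.tgt ℓ U) (F - g.xtr j ℓ (L * ℓ) U F) ≤
      c / L ^ 3 * g.pn ℓ (h / 2) 1 U F) ∧
    (ℓ < stein U → g.pn (L * ℓ) (2 * h) 1 (g.tgt ℓ U) (F - g.xtr j ℓ (L * ℓ) U F) ≤
      g.pn ℓ (h / 2) 1 U F) := by
  obtain ⟨Cs, hCs, Hs⟩ := Geo.sch_flat
  obtain ⟨Co, hCo, Ho⟩ := Geo.pn_loc
  refine ⟨4 * Cs + Co, by linarith, fun g hg L j ℓ h hL h8 hM h0 U F hF hF0 => ?_⟩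
  have hL0 := Real.mul_self_sqrt (Nat.cast_nonneg (α := ℝ) L)
  have hL3 : 4 * Cs + Co ≤ L := by nlinarith
  have hL4 : 4 ≤ L := by exact_mod_cast (by linarith : (4 : ℝ) ≤ L)
  have hL5 : (0 : ℝ) < L := by linarith
  have hl : (8 : ℝ) ≤ ℓ := by exact_mod_cast h8
  have hll : 4 * ℓ ≤ L * ℓ := Nat.mul_le_mul_right _ hL4
  have h1 : 1 ≤ ℓ := by omega
  have h1' : 1 ≤ L * ℓ := by omega
  have h2 : 0 < h / 2 := by linarith
  have h3 : 0 < 2 * h := by linarith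
  refine ⟨fun hU hs => ?_, fun hs => ?_⟩
  · have hc : (U.card : ℝ) ≠ 0 := by exact_mod_cast hU.card_pos.ne'
    have e : F - (U.card : ℝ)⁻¹ • ∑ x ∈ U, g.Ext x F =
        (U.card : ℝ)⁻¹ • ∑ x ∈ U, (F - g.Ext x F) := by
      rw [sum_sub_distrib, sum_const, smul_sub, ← Nat.cast_smul_eq_nsmul ℝ, inv_smul_smul₀ hc]
    have e' : (ℓ : ℝ) / ((L * ℓ : ℕ) : ℝ) = (L : ℝ)⁻¹ := by
      push_cast
      field_simp
    rw [hg.xtr_eq, Geo.tgt, if_pos hs, if_pos hs, e, pn_smul hg.sign h1' h3 one_pos,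
      abs_of_nonneg (by positivity), inv_mul_le_iff₀ (by positivity), ← nsmul_eq_mul, ← sum_const]
    refine (pn_sum hg.sign h1' h3 one_pos _ _ _).trans (sum_le_sum fun x hx => ?_)
    refine (Ho g hg.sign ℓ (L * ℓ) (h / 2) (2 * h) 1 1 h8 (by push_cast; gcongr; linarith)
      hM h2 h3 (by linarith) one_pos one_pos U ((hg.xtr _ _ U).2 hs) x hx _ hF (hg.noB hF)
      hF0).trans (mul_le_mul_of_nonneg_right ?_ (pn_nonneg hg.sign h1 h2 one_pos _ _))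
    rw [e', inv_pow, ← div_eq_mul_inv]
    gcongr
    linarith
  · rw [hg.xtr_eq, Geo.tgt, if_neg (not_le.2 hs), if_neg (not_le.2 hs), sub_zero]
    refine (Geo.pn_sch (ρ := 1) hg.sign h1 h2 one_pos hF (by positivity) (by omega) h3
      (fun z _ => Hs g hg.sign ℓ (L * ℓ) h1 (by omega) (by omega) z (hg.flat _ _)) one_pos ?_).1
      le_rfl
    rw [sqrt_ratio h1, ← div_eq_mul_inv, ← mul_div_assoc, div_le_iff₀ (by linarith)]
    nlinarith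

open Classical in
/-- The size of the extracted coefficients. -/
theorem exists_ext : ∃ c : ℝ, 1 ≤ c ∧ ∀ g : Geo, Pl g → ∀ (ℓ ℓ' : ℕ) (h : ℝ), 8 ≤ ℓ →
    16 * ℓ ≤ g.M → 0 < h → ∀ F : Finset g.P → g.E, (∀ U, F U ∈ g.sub U) → ∀ (z : g.P)
    (o : g.P → g.E), (∀ x, o x = ∑ U ∈ univ.filter (fun U => x ∈ U ∧ g.Xtr ℓ ℓ' U),
      ((U.card : ℝ)⁻¹) • F U) → h ^ 2 * ∑ x ∈ ball z ℓ, (ℓ * |g.nu x (o x)| + |g.ze x (o x)|) ≤
      c * ℓ ^ 2 * ∑ U ∈ univ.filter (fun U : Finset g.P => ∃ x ∈ U, tdist x z ≤ ℓ),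
        g.pn ℓ (h / 2) 1 U (F U) := by
  obtain ⟨Ce, hCe, He⟩ := Geo.pn_extract
  refine ⟨8 * Ce, by linarith, fun g hg ℓ ℓ' h h8 hM h0 F hF z o ho => ?_⟩
  have h2 : 0 < h / 2 := by linarith
  have ab : ∀ (φ : g.E →ₗ[ℝ] ℝ) (S : Finset (Finset g.P)),
      |φ (∑ U ∈ S, ((U.card : ℝ)⁻¹) • F U)| ≤ ∑ U ∈ S, (U.card : ℝ)⁻¹ * |φ (F U)| := fun φ S => by
    rw [map_sum]
    refine (abs_sum_le_sum_abs _ _).trans (le_of_eq (sum_congr rfl fun U _ => ?_))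
    rw [map_smul, smul_eq_mul, abs_mul, abs_of_nonneg (by positivity)]
  refine le_trans ?_ (mul_le_mul_of_nonneg_left (sum_ball z ℓ
    (fun U => pn_nonneg hg.sign (by omega) h2 one_pos U (F U)) (g.Xtr ℓ ℓ')) (by positivity))
  rw [mul_sum, mul_sum]
  refine sum_le_sum fun x _ => ?_
  rw [ho, ← nuL_apply, ← zeL_apply]
  refine (mul_le_mul_of_nonneg_left (add_le_add (mul_le_mul_of_nonneg_left
    (ab (nuL _ x) _) (by positivity)) (ab (zeL _ x) _)) (by positivity)).trans ?_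
  rw [mul_sum, ← sum_add_distrib, mul_sum, mul_sum]
  refine sum_le_sum fun U hU => ?_
  obtain ⟨hx, hs⟩ := (mem_filter.1 hU).2
  obtain ⟨c1, c2, -⟩ := He g hg.sign ℓ (h / 2) 1 h8 hM h2 one_pos U x hx hs.1 (hg.flat _ _) _ (hF U)
  have c3 := mul_le_mul_of_nonneg_left c1 (by positivity : (0 : ℝ) ≤ ℓ)
  have c4 : h ^ 2 * (ℓ * |g.nu x (F U)| + |g.ze x (F U)|) ≤
      8 * Ce * ℓ ^ 2 * g.pn ℓ (h / 2) 1 U (F U) := by linarith
  have c5 := mul_le_mul_of_nonneg_left c4 (by positivity : (0 : ℝ) ≤ (U.card : ℝ)⁻¹)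
  rw [nuL_apply, zeL_apply]
  linarith

open Geo in
/-- The step without fluxes and sources. -/
theorem step_pl : ∃ L₀ : ℕ, ∀ L ≥ L₀, ∃ C : ℝ, 1 ≤ C ∧ ∀ g : Geo, Pl g → ∀ (j ℓ : ℕ) (h : ℝ),
    8 ≤ ℓ → 16 * (L * ℓ) ≤ g.M → (L : ℝ) ^ 2 ≤ h → ∀ s s' : g.St, g.Wf s →
    g.Wf s' → ∀ ε ε' k : ℝ, C * ε ≤ 1 →
    Anch ℓ L (fun X => g.pn ℓ h 1 X (s.H X)) ε →
    Anch ℓ L (fun X => g.pn ℓ h 1 X (s'.H X)) ε →
    Anch ℓ L (fun X => g.pn ℓ h 1 X (s.H X - s'.H X)) ε' →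
    Anch ℓ L (fun X => g.pn ℓ h 1 X (s.K X - s'.K X)) k → ∀ d d',
      Anch (L * ℓ) L (fun X => g.pn (L * ℓ) (2 * h) 1 X
        ((g.step j ℓ (L * ℓ) d s).K X - (g.step j ℓ (L * ℓ) d' s').K X))
        (th L / 4 * k + C * ε * ε') ∧
      ∀ z, h ^ 2 * ∑ x ∈ ball z ℓ,
        (ℓ * |g.nu x (g.out ℓ (L * ℓ) s x - g.out ℓ (L * ℓ) s' x)| +
          |g.ze x (g.out ℓ (L * ℓ) s x - g.out ℓ (L * ℓ) s' x)|)
        ≤ C * ℓ ^ 2 * (k + ε * ε') := by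
  classical
  obtain ⟨Cg, hCg, Hg⟩ := gram_covP
  obtain ⟨Co, hCo, Ho⟩ := exists_tgt
  obtain ⟨Ce, hCe, He⟩ := exists_ext
  have e6 : (1 : ℝ) ≤ Real.exp 6 := Real.one_le_exp (by norm_num)
  have eo : Co ≤ Real.exp 6 * Co := le_mul_of_one_le_left (by linarith) e6
  refine ⟨⌈(4 * Cg + 1600 * (Real.exp 6 * Co)) ^ 2⌉₊, fun L hL => ?_⟩
  have hL1 : (4 * Cg + 1600 * (Real.exp 6 * Co)) ^ 2 ≤ L := Nat.ceil_le.1 hL
  have hL2 : 4 * Cg + 1600 * (Real.exp 6 * Co) ≤ √(L : ℝ) := Real.le_sqrt_of_sq_le hL1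
  have hL3 : 4 * Cg + 1600 * (Real.exp 6 * Co) ≤ L := by nlinarith
  have hL4 : 4 ≤ L := by exact_mod_cast (by linarith : (4 : ℝ) ≤ L)
  have hL5 : (1 : ℝ) ≤ L := by linarith
  have hsq : 0 < √(L : ℝ) := by linarith
  obtain ⟨C₁, hC₁, H₁⟩ := step_cl L hL5 L
  have hC : C₁ ≤ (400 * (Real.exp 6 * Co) + 2 * Ce) * C₁ :=
    le_mul_of_one_le_left (by linarith) (by linarith)
  refine ⟨(400 * (Real.exp 6 * Co) + 2 * Ce) * C₁, hC₁.trans hC,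
    fun g hg j ℓ h h8 hM hh s s' hs hs' ε ε' k hε a1 a2 a3 a4 d d' => ?_⟩
  have hl : (8 : ℝ) ≤ ℓ := by exact_mod_cast h8
  have h1 : 1 ≤ ℓ := by omega
  have hll : 4 * ℓ ≤ L * ℓ := Nat.mul_le_mul_right _ hL4
  have h0 : 0 < h := by nlinarith
  have h2 : 0 < h / 2 := by linarith
  have h3 : 0 < 2 * h := by linarith
  have ε0 := G.anch_nonneg (fun X => pn_nonneg hg.sign h1 h0 one_pos X _) a1
  have ε1 := G.anch_nonneg (fun X => pn_nonneg hg.sign h1 h0 one_pos X _) a3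
  have k0 := G.anch_nonneg (fun X => pn_nonneg hg.sign h1 h0 one_pos X _) a4
  have hCm := covP_anti (C.Dm_anti g.A) ℓ (L * ℓ)
  have eL : Cg * ((L * ℓ : ℕ) : ℝ) / ℓ = Cg * L := by
    push_cast
    field_simp
  obtain ⟨b1, b2⟩ := H₁ g hg.sign ℓ (L * ℓ) h1 hll le_rfl _ hCm
    (fun _ _ hd => covP_range _ (by omega) (by omega) hd) _ h 1
    (Hg _ _ (isD_Dm hg.sign) ℓ (L * ℓ) h8 (by omega)) (by positivity)
    (by rw [eL]; nlinarith) h0 one_pos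
  obtain ⟨-, b3, -⟩ := b2 s.H s'.H hs.H_empty hs'.H_empty hs.H_mem hs'.H_mem ε ε'
    (le_trans (mul_le_mul_of_nonneg_right hC ε0) hε) a1 a2 a3
  clear b2 H₁ Hg
  generalize hE : evG (g.exM (covP (Dm g.A) ℓ (L * ℓ))) = E at b1 b3
  have mE : ∀ {U F}, F ∈ g.sub U → E F ∈ g.sub U := fun hF => by
    rw [← hE]
    exact evG_mem _ hCm hF
  have mC : ∀ {t}, g.Wf t → ∀ U, Cl E t.H U - E (t.H U) ∈ g.sub U := fun ht U =>
    sub_mem (hE ▸ ht.Cl_mem hCm U) (mE (ht.H_mem U))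
  obtain ⟨N, hN⟩ : ∃ N : Finset g.P → g.E,
      ∀ U, (Cl E s.H U - E (s.H U)) - (Cl E s'.H U - E (s'.H U)) = N U := ⟨_, fun _ => rfl⟩
  obtain ⟨Δ, hΔ⟩ : ∃ Δ : Finset g.P → g.E,
      ∀ U, Δ U = g.rem ℓ (L * ℓ) s U - g.rem ℓ (L * ℓ) s' U := ⟨_, fun _ => rfl⟩
  simp only [hN] at b3
  have mΔ : ∀ U, Δ U ∈ g.sub U := fun U =>
    hΔ U ▸ sub_mem (hs.rem_mem _ _ U).1 (hs'.rem_mem _ _ U).1
  have fΔ : ∀ U, g.noF (Δ U) = 0 := fun U => by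
    rw [hΔ, map_sub, (hs.rem_mem _ _ U).2, (hs'.rem_mem _ _ U).2, sub_zero]
  have bΔ : ∀ U, g.pn ℓ (h / 2) 1 U (Δ U) ≤
      2 * (g.pn ℓ h 1 U (s.K U - s'.K U) + g.pn ℓ (h / 2) 1 U (N U)) := fun U => by
    have m1 := sub_mem (hs.Kmem U) (hs'.Kmem U)
    have e : Δ U = (E (s.K U - s'.K U) - g.noF (E (s.K U - s'.K U))) + (N U - g.noF (N U)) := by
      simp only [hΔ, ← hN, rem_eq hs _ _ U hE.symm, rem_eq hs' _ _ U hE.symm, map_sub]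
      ring
    rw [e]
    linarith [pn_add hg.sign h1 h2 one_pos U
      (E (s.K U - s'.K U) - g.noF (E (s.K U - s'.K U))) (N U - g.noF (N U)),
      pn_sub_noF hg.sign h1 h2 one_pos (mE m1), b1 U _ m1,
      pn_sub_noF hg.sign h1 h2 one_pos (hN U ▸ sub_mem (mC hs U) (mC hs' U))]
  have p0 := fun U => pn_nonneg hg.sign h1 h0 one_pos U (s.K U - s'.K U)
  have n0 := fun U => pn_nonneg hg.sign h1 h2 one_pos U (N U)
  have εε := mul_nonneg ε0 ε1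
  have Ho' := fun U => Ho g hg L j ℓ h (by linarith) h8 hM h0 U _ (mΔ U) (fΔ U)
  refine ⟨?_, fun z => ?_⟩
  · refine anch_mono (anch_tgt (c := 2 * Co) h8 (by omega) (by linarith)
      p0 n0 a4 b3 (g.tgt ℓ) (fun _ => rfl) (fun X => ?_)
      (fun U hU hs => ((Ho' U).1 hU hs).trans ?_) fun U hs => ((Ho' U).2 hs).trans ?_)
      (fun X => le_rfl) (add_le_add ?_ ?_)
    · simp only [step]
      rw [← sum_sub_distrib]
      refine (pn_sum hg.sign (by omega) h3 one_pos X _ _).trans (le_of_eq ?_)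
      refine sum_congr (by congr) fun U hU => ?_
      rw [(mem_filter.1 hU).2, hΔ, hg.xtr_sub, sub_sub_sub_comm]
    · exact (mul_le_mul_of_nonneg_left (bΔ U) (by positivity)).trans (le_of_eq (by ring))
    · exact (bΔ U).trans (mul_le_mul_of_nonneg_right (by linarith) (add_nonneg (p0 U) (n0 U)))
    · refine mul_le_mul_of_nonneg_right ?_ k0
      rw [th, div_le_div_iff₀ (by linarith) (by norm_num), inv_mul_eq_div, le_div_iff₀ hsq]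
      nlinarith [Real.mul_self_sqrt (by linarith : (0 : ℝ) ≤ L)]
    · nlinarith [mul_nonneg (mul_nonneg (by linarith : 0 ≤ Ce) (by linarith : 0 ≤ C₁)) εε]
  · have q1 := anch_plain le_rfl (by positivity) p0 a4 z
    have q2 := anch_plain (r := ℓ) (by omega) (by positivity) n0 b3 z
    refine (He g hg ℓ (L * ℓ) h h8 (by omega) h0 Δ mΔ z _ fun x => by
      simp only [out, hΔ, smul_sub, sum_sub_distrib]).trans ?_
    refine (mul_le_mul_of_nonneg_left (sum_le_sum fun U _ => bΔ U) (by positivity)).trans ?_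
    rw [← mul_sum, sum_add_distrib]
    have : k + C₁ * ε * ε' ≤ C₁ * (k + ε * ε') := by nlinarith
    calc _ ≤ Ce * ℓ ^ 2 * (2 * (C₁ * (k + ε * ε'))) :=
          mul_le_mul_of_nonneg_left (by linarith) (by positivity)
      _ = 2 * Ce * C₁ * ℓ ^ 2 * (k + ε * ε') := by ring
      _ ≤ _ := by gcongr; linarith

end R7

namespace Geo

/-- The bulk step. -/
theorem step_bulk : ∃ L₀ : ℕ, ∀ L ≥ L₀, ∃ C : ℝ, 1 ≤ C ∧ ∀ (M : ℕ) [NeZero M] (j ℓ : ℕ) (h : ℝ),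
    8 ≤ ℓ → 16 * (L * ℓ) ≤ M → (L : ℝ) ^ 2 ≤ h → ∀ s s' : (geo0 M).St, (geo0 M).Wf s →
    (geo0 M).Wf s' → ∀ ε ε' k : ℝ, C * ε ≤ 1 →
    Anch ℓ L (fun X => (geo0 M).pn ℓ h 1 X (s.H X)) ε →
    Anch ℓ L (fun X => (geo0 M).pn ℓ h 1 X (s'.H X)) ε →
    Anch ℓ L (fun X => (geo0 M).pn ℓ h 1 X (s.H X - s'.H X)) ε' →
    Anch ℓ L (fun X => (geo0 M).pn ℓ h 1 X (s.K X - s'.K X)) k → ∀ d d',
      Anch (L * ℓ) L (fun X => (geo0 M).pn (L * ℓ) (2 * h) 1 X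
        (((geo0 M).step j ℓ (L * ℓ) d s).K X - ((geo0 M).step j ℓ (L * ℓ) d' s').K X))
        (th L / 4 * k + C * ε * ε') ∧
      ∀ z, h ^ 2 * ∑ x ∈ ball z ℓ,
        (ℓ * |(geo0 M).nu x ((geo0 M).out ℓ (L * ℓ) s x - (geo0 M).out ℓ (L * ℓ) s' x)| +
          |(geo0 M).ze x ((geo0 M).out ℓ (L * ℓ) s x - (geo0 M).out ℓ (L * ℓ) s' x)|)
        ≤ C * ℓ ^ 2 * (k + ε * ε') := by
  obtain ⟨L₀, H⟩ := R7.step_pl
  refine ⟨L₀, fun L hL => ?_⟩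
  obtain ⟨C, hC, H'⟩ := H L hL
  exact ⟨C, hC, fun M _ => H' (geo0 M) (R7.pl0 M)⟩

end Geo

end Vale.Agent.P144Z
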